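import Mathlib.Analysis.InnerProductSpace.PiL2
import Mathlib.Geometry.Manifold.ChartedSpace
import Mathlib.Topology.MetricSpace.Isometry
import Mathlib.Topology.Algebra.MulAction
import Mathlib.Topology.MetricSpace.Equicontinuity
import Mathlib.LinearAlgebra.UnitaryGroup

/-!
# Definitions for the statement of `P228.IsometryGroups`
-/

set_option autoImplicit false

namespace Vale.Agent.P228.H491

open Topology

universe u v

/-- `M` is a connected Hausdorff topological manifold of dimension `n`: it has an atlas of charts
in `ℝ^n`. -/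
def ConnManifold (n : ℕ) (M : Type u) [TopologicalSpace M] : Prop :=
  T2Space M ∧ ConnectedSpace M ∧ Nonempty (ChartedSpace (EuclideanSpace ℝ (Fin n)) M)

/-- Every continuous action of every compact Hausdorff group on `M` which moves each point of `O` by
less than `ε` is trivial. -/
def NewmanProperty (M : Type u) [MetricSpace M] (O : Set M) (ε : ℝ) : Prop :=
  ∀ (K : Type v) [Group K] [TopologicalSpace K] [IsTopologicalGroup K] [CompactSpace K]
    [T2Space K] [MulAction K M] [ContinuousSMul K M],
    (∀ k : K, ∀ x ∈ O, dist (k • x) x < ε) → ∀ (k : K) (x : M), k • x = x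

/-- Every group of isometries of `M` which moves each point of `O` by less than `ε` is trivial. -/
def NewmanIsometries (M : Type u) [MetricSpace M] (O : Set M) (ε : ℝ) : Prop :=
  ∀ H : Subgroup (M ≃ᵢ M), (∀ h ∈ H, ∀ x ∈ O, dist (h x) x < ε) → H = ⊥

/-- Every uniformly equicontinuous group of homeomorphisms of `M` which moves each point of `O` by
less than `ε` is trivial. -/
def NewmanEquicontinuous (M : Type u) [MetricSpace M] (O : Set M) (ε : ℝ) : Prop :=
  ∀ H : Subgroup (M ≃ₜ M), (UniformEquicontinuous fun (h : H) (x : M) => (h : M ≃ₜ M) x) →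
    (∀ h ∈ H, ∀ x ∈ O, dist (h x) x < ε) → H = ⊥

/-- The topology of pointwise convergence on the group of isometries. -/
@[reducible] def isoTop (M : Type u) [MetricSpace M] : TopologicalSpace (M ≃ᵢ M) :=
  TopologicalSpace.induced (fun (g : M ≃ᵢ M) (x : M) => g x) inferInstance

/-- Some neighbourhood of `1` contains no nontrivial subgroup. -/
def NoSmallSubgroups (G : Type u) [Group G] [TopologicalSpace G] : Prop :=
  ∃ U ∈ 𝓝 (1 : G), ∀ H : Subgroup G, (H : Set G) ⊆ U → H = ⊥

/-- `G` is isomorphic, as a topological group, to a closed subgroup of a unitary group `U(N)`. -/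
def ClosedLinear (G : Type u) [Group G] [TopologicalSpace G] : Prop :=
  ∃ (N : ℕ) (φ : G →* Matrix.unitaryGroup (Fin N) ℂ), Topology.IsClosedEmbedding φ

/-- Every uniformly equicontinuous group of homeomorphisms of `M` is isomorphic, as a group, to a
subgroup of a unitary group `U(N)`. -/
def EquicontinuousLinear (M : Type u) [MetricSpace M] : Prop :=
  ∀ H : Subgroup (M ≃ₜ M), (UniformEquicontinuous fun (h : H) (x : M) => (h : M ≃ₜ M) x) →
    ∃ (N : ℕ) (φ : H →* Matrix.unitaryGroup (Fin N) ℂ), Function.Injective φ

end Vale.Agent.P228.H491
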