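import Vale.Agent.P228.H491.Isom

/-!
# Equicontinuous groups of homeomorphisms of compact manifolds
-/

set_option autoImplicit false

namespace Vale.Agent.P228.H491

open Set Topology Metric Filter

universe u v

section Aux

attribute [local instance] isoTop isoAct

/-- a group of homeomorphisms preserving a metric, as isometries -/
def toIso {M : Type u} [MetricSpace M] (H : Subgroup (M ≃ₜ M))
    (hiso : ∀ h ∈ H, ∀ x y, dist (h x) (h y) = dist x y) : H →* (M ≃ᵢ M) where
  toFun h := ⟨(h : M ≃ₜ M).toEquiv, Isometry.of_dist_eq (hiso h h.2)⟩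
  map_one' := rfl
  map_mul' _ _ := rfl

theorem equi_aux (n : ℕ) (M : Type u) (t : TopologicalSpace M) (m' : MetricSpace M)
    (ht : m'.toUniformSpace.toTopologicalSpace = t) [CompactSpace M] [ConnectedSpace M]
    [ChartedSpace (EuclideanSpace ℝ (Fin n)) M] (H : Subgroup (M ≃ₜ M))
    (hiso : ∀ h ∈ H, ∀ x y, dist (h x) (h y) = dist x y) :
    (∃ (N : ℕ) (φ : H →* Matrix.unitaryGroup (Fin N) ℂ), Function.Injective φ) ∧
    ∀ (D : M → M → ℝ), (∀ x, Continuous fun y => D y x) → ∀ (O : Set M) (ε : ℝ), 0 < ε →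
      (∀ (K : Type u) [Group K] [TopologicalSpace K] [IsTopologicalGroup K]
        [CompactSpace K] [T2Space K] [MulAction K M] [ContinuousSMul K M],
        (∀ (k : K), ∀ x ∈ O, D (k • x) x < ε) → ∀ (k : K) (x : M), k • x = x) →
      (∀ h ∈ H, ∀ x ∈ O, D (h x) x < ε / 2) → H = ⊥ := by
  subst ht
  have hinj : Function.Injective (toIso H hiso) := by
    intro a b hab
    apply Subtype.ext
    refine Homeomorph.ext fun x => ?_
    exact congrArg (fun g : M ≃ᵢ M => g x) hab
  refine ⟨?_, ?_⟩
  · obtain ⟨-, -, -, -, h5⟩ := iso_nss (M := M) n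
    obtain ⟨N, φ, hφ⟩ := h5 inferInstance
    exact ⟨N, φ.comp (toIso H hiso), hφ.injective.comp hinj⟩
  · intro D hD O ε hε hN hH
    obtain ⟨x₁⟩ : Nonempty M := inferInstance
    obtain ⟨r, hr⟩ := (isCompact_univ (X := M)).isBounded.subset_closedBall x₁
    have h1 : (toIso H hiso).range = ⊥ := by
      refine eq_bot_of_newman D hD x₁ r hε hN _ ?_ ?_
      · intro g _
        exact hr (mem_univ (g x₁))
      · rintro _ ⟨h, rfl⟩ x hx
        exact hH h h.2 x hx
    rw [Subgroup.eq_bot_iff_forall]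
    intro h hh
    have h2 : toIso H hiso ⟨h, hh⟩ = 1 := by
      have h3 : toIso H hiso ⟨h, hh⟩ ∈ (toIso H hiso).range := ⟨_, rfl⟩
      rw [h1] at h3
      exact h3
    have h4 := hinj (h2.trans (map_one _).symm)
    exact congrArg Subtype.val h4

end Aux

section InvDist

variable {M : Type u} [MetricSpace M] [CompactSpace M] (H : Subgroup (M ≃ₜ M))

/-- the invariant distance -/
noncomputable def idist (x y : M) : ℝ := ⨆ h : H, dist ((h : M ≃ₜ M) x) ((h : M ≃ₜ M) y)

theorem exists_bound : ∃ C : ℝ, ∀ x y : M, dist x y ≤ C := by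
  obtain ⟨C, hC⟩ := Metric.isBounded_iff.1 (isCompact_univ (X := M)).isBounded
  exact ⟨C, fun x y => hC (mem_univ x) (mem_univ y)⟩

theorem bdd_idist (x y : M) :
    BddAbove (range fun h : H => dist ((h : M ≃ₜ M) x) ((h : M ≃ₜ M) y)) := by
  obtain ⟨C, hC⟩ := exists_bound (M := M)
  exact ⟨C, by rintro _ ⟨h, rfl⟩; exact hC _ _⟩

theorem le_idist (x y : M) (h : H) : dist ((h : M ≃ₜ M) x) ((h : M ≃ₜ M) y) ≤ idist H x y :=
  le_ciSup (bdd_idist H x y) h

theorem dist_le_idist (x y : M) : dist x y ≤ idist H x y := le_idist H x y 1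

theorem idist_inv (g : M ≃ₜ M) (hg : g ∈ H) (x y : M) : idist H (g x) (g y) = idist H x y := by
  apply le_antisymm
  · refine ciSup_le fun h => ?_
    exact le_idist H x y (h * ⟨g, hg⟩)
  · refine ciSup_le fun h => ?_
    have h1 := le_idist H (g x) (g y) (h * (⟨g, hg⟩ : H)⁻¹)
    have h2 : ∀ z : M, ((h * (⟨g, hg⟩ : H)⁻¹ : H) : M ≃ₜ M) (g z) = (h : M ≃ₜ M) z := by
      intro z
      show (h : M ≃ₜ M) (g.symm (g z)) = _
      rw [g.symm_apply_apply]
    rwa [h2, h2] at h1

/-- the invariant metric -/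
@[reducible] noncomputable def imetric : MetricSpace M where
  dist := idist H
  dist_self x := by
    simp [idist]
  dist_comm x y := by
    simp only [idist, dist_comm]
  dist_triangle x y z := by
    refine ciSup_le fun h => ?_
    exact (dist_triangle _ ((h : M ≃ₜ M) y) _).trans (add_le_add (le_idist H x y h)
      (le_idist H y z h))
  eq_of_dist_eq_zero {x y} hxy := by
    have h1 := dist_le_idist H x y
    have h2 : idist H x y = 0 := hxy
    exact dist_le_zero.1 (h1.trans h2.le)

theorem imetric_top (heq : UniformEquicontinuous fun (h : H) (x : M) => (h : M ≃ₜ M) x) :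
    (imetric H).toUniformSpace.toTopologicalSpace =
      (‹MetricSpace M›).toUniformSpace.toTopologicalSpace := by
  rename_i m _
  apply le_antisymm
  · rw [← continuous_id_iff_le]
    rw [@Metric.continuous_iff M M (imetric H).toPseudoMetricSpace m.toPseudoMetricSpace]
    intro x ε hε
    exact ⟨ε, hε, fun y hy => (dist_le_idist H y x).trans_lt hy⟩
  · rw [← continuous_id_iff_le]
    rw [@Metric.continuous_iff M M m.toPseudoMetricSpace (imetric H).toPseudoMetricSpace]
    intro x ε hε
    obtain ⟨δ, hδ, h1⟩ := Metric.uniformEquicontinuous_iff.1 heq (ε / 2) (by positivity)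
    refine ⟨δ, hδ, fun y hy => ?_⟩
    have h2 : idist H y x ≤ ε / 2 := ciSup_le fun h => (h1 y x hy h).le
    have h3 : idist H y x < ε := by linarith
    exact h3

end InvDist

/-- **equicontinuous groups of homeomorphisms of compact connected manifolds** -/
theorem equi (n : ℕ) (M : Type u) [MetricSpace M] [CompactSpace M] [ConnectedSpace M]
    [ChartedSpace (EuclideanSpace ℝ (Fin n)) M] :
    (∀ H : Subgroup (M ≃ₜ M), (UniformEquicontinuous fun (h : H) (x : M) => (h : M ≃ₜ M) x) →
      ∃ (N : ℕ) (φ : H →* Matrix.unitaryGroup (Fin N) ℂ), Function.Injective φ) ∧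
    (∀ O : Set M, IsOpen O → O.Nonempty → ∃ ε > (0 : ℝ), ∀ H : Subgroup (M ≃ₜ M),
      (UniformEquicontinuous fun (h : H) (x : M) => (h : M ≃ₜ M) x) →
      (∀ h ∈ H, ∀ x ∈ O, dist (h x) x < ε) → H = ⊥) := by
  refine ⟨fun H heq => ?_, fun O hO hne => ?_⟩
  · exact (equi_aux n M _ (imetric H) (imetric_top H heq) H
      (fun g hg x y => idist_inv H g hg x y)).1
  · obtain ⟨ε, hε, HN⟩ := newman_compact.{u, u} n hO hne
    refine ⟨ε / 2, by positivity, fun H heq hH => ?_⟩
    exact (equi_aux n M _ (imetric H) (imetric_top H heq) H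
      (fun g hg x y => idist_inv H g hg x y)).2 (fun a b => dist a b)
      (fun x => continuous_id.dist continuous_const) O ε hε HN hH

end Vale.Agent.P228.H491
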