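import Mathlib
import Vale.Agent.P228.H491.Defs

/-!
# The isometry group of a proper metric space

With the topology of pointwise convergence the group `M ≃ᵢ M` of a metric space is a topological
group acting jointly continuously; if closed balls of `M` are compact, it is locally compact, and
the set of isometries moving one point by at most `r` is compact.
-/

set_option autoImplicit false

namespace Vale.Agent.P228.H491

open Set Topology Metric Filter

universe u

variable {M : Type u} [MetricSpace M]

attribute [local instance] isoTop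

theorem continuous_coe : Continuous (fun (g : M ≃ᵢ M) (x : M) => g x) := continuous_induced_dom

theorem continuous_apply' (x : M) : Continuous fun g : M ≃ᵢ M => g x :=
  (continuous_apply x).comp continuous_coe

theorem continuous_eval : Continuous fun p : (M ≃ᵢ M) × M => p.1 p.2 := by
  rw [continuous_iff_continuousAt]
  rintro ⟨g, x⟩
  rw [ContinuousAt, tendsto_iff_dist_tendsto_zero]
  have h1 : Tendsto (fun p : (M ≃ᵢ M) × M => dist p.2 x + dist (p.1 x) (g x)) (𝓝 (g, x))
      (𝓝 0) := by
    have h2 : Continuous (fun p : (M ≃ᵢ M) × M => dist p.2 x + dist (p.1 x) (g x)) :=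
      (continuous_snd.dist continuous_const).add
        (((continuous_apply' x).comp continuous_fst).dist continuous_const)
    have h3 := h2.tendsto (g, x)
    simpa using h3
  refine squeeze_zero (fun _ => dist_nonneg) (fun p => ?_) h1
  calc dist (p.1 p.2) (g x) ≤ dist (p.1 p.2) (p.1 x) + dist (p.1 x) (g x) := dist_triangle _ _ _
    _ = _ := by rw [p.1.dist_eq]

theorem isTopologicalGroup : IsTopologicalGroup (M ≃ᵢ M) where
  continuous_mul := by
    rw [continuous_induced_rng]
    refine continuous_pi fun x => ?_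
    exact continuous_eval.comp (continuous_fst.prodMk ((continuous_apply' x).comp continuous_snd))
  continuous_inv := by
    rw [continuous_induced_rng]
    refine continuous_pi fun x => ?_
    rw [continuous_iff_continuousAt]
    intro g
    rw [ContinuousAt, tendsto_iff_dist_tendsto_zero]
    have h1 : ∀ h : M ≃ᵢ M, dist (h⁻¹ x) (g⁻¹ x) = dist (h (g⁻¹ x)) (g (g⁻¹ x)) := by
      intro h
      rw [← h.dist_eq, IsometryEquiv.apply_inv_self, IsometryEquiv.apply_inv_self, dist_comm]
    have h2 : Continuous fun h : M ≃ᵢ M => dist (h (g⁻¹ x)) (g (g⁻¹ x)) :=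
      (continuous_apply' _).dist continuous_const
    have h3 := h2.tendsto g
    rw [dist_self] at h3
    exact h3.congr fun h => (h1 h).symm

theorem t2Space : T2Space (M ≃ᵢ M) := by
  refine ⟨fun a b hab => ?_⟩
  obtain ⟨m, hm⟩ : ∃ m : M, a m ≠ b m := by
    by_contra h
    push Not at h
    exact hab (IsometryEquiv.ext h)
  obtain ⟨U, V, hU, hV, ha, hb, hd⟩ := t2_separation hm
  have hc : Continuous fun g : M ≃ᵢ M => g m := continuous_apply' m
  exact ⟨_, _, hU.preimage hc, hV.preimage hc, ha, hb, hd.preimage _⟩

/-- The isometry with given graph and inverse graph. -/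
def ofPair (q : (M → M) × (M → M)) (h : ∀ x y, dist (q.1 y) x = dist y (q.2 x)) : M ≃ᵢ M where
  toFun := q.1
  invFun := q.2
  left_inv z := by
    have h1 := h (q.1 z) z
    rw [dist_self] at h1
    exact (dist_eq_zero.1 h1.symm).symm
  right_inv x := by
    have h1 := h x (q.2 x)
    rw [dist_self] at h1
    exact dist_eq_zero.1 h1
  isometry_toFun := by
    refine Isometry.of_dist_eq fun y z => ?_
    have h1 := h (q.1 z) z
    rw [dist_self] at h1
    have h2 : q.2 (q.1 z) = z := (dist_eq_zero.1 h1.symm).symm
    have h3 := h (q.1 z) y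
    rw [h2] at h3
    exact h3

/-- Isometries moving `x₀` by at most `r` form a compact set. -/
theorem isCompact_move [ProperSpace M] (x₀ : M) (r : ℝ) :
    IsCompact {g : M ≃ᵢ M | dist (g x₀) x₀ ≤ r} := by
  let P : Set ((M → M) × (M → M)) :=
    {q | (∀ x y, dist (q.1 y) x = dist y (q.2 x)) ∧ dist (q.1 x₀) x₀ ≤ r}
  have hcl : IsClosed P := by
    have e : P = (⋂ x, ⋂ y, {q : (M → M) × (M → M) | dist (q.1 y) x = dist y (q.2 x)}) ∩
        {q : (M → M) × (M → M) | dist (q.1 x₀) x₀ ≤ r} := by
      ext q
      simp only [P, mem_inter_iff, mem_iInter, mem_ofPred_eq]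
    rw [e]
    refine IsClosed.inter (isClosed_iInter fun x => isClosed_iInter fun y => ?_) ?_
    · refine isClosed_eq ?_ ?_
      · exact ((continuous_apply y).comp continuous_fst).dist continuous_const
      · exact continuous_const.dist ((continuous_apply x).comp continuous_snd)
    · exact isClosed_le (((continuous_apply x₀).comp continuous_fst).dist continuous_const)
        continuous_const
  let B : Set (M → M) := Set.pi univ fun x => closedBall x₀ (dist x x₀ + r)
  have hB : IsCompact B := isCompact_univ_pi fun x => isCompact_closedBall _ _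
  have hPB : P ⊆ B ×ˢ B := by
    rintro ⟨f, f'⟩ ⟨h, hr⟩
    simp only at h hr
    have h0 : dist x₀ (f' x₀) ≤ r := by rw [← h x₀ x₀]; exact hr
    refine ⟨fun x _ => ?_, fun x _ => ?_⟩
    · rw [mem_closedBall]
      show dist (f x) x₀ ≤ _
      rw [h x₀ x]
      linarith [dist_triangle x x₀ (f' x₀)]
    · rw [mem_closedBall]
      show dist (f' x) x₀ ≤ _
      rw [dist_comm, ← h x x₀]
      linarith [dist_triangle (f x₀) x₀ x, dist_comm x x₀]
  have hPc : IsCompact P := (hB.prod hB).of_isClosed_subset hcl hPB
  have : CompactSpace P := isCompact_iff_compactSpace.1 hPc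
  let Ψ : P → (M ≃ᵢ M) := fun q => ofPair q.1 q.2.1
  have hΨ : Continuous Ψ := by
    rw [continuous_induced_rng]
    exact continuous_fst.comp continuous_subtype_val
  have hr : IsCompact (Set.range Ψ) := isCompact_range hΨ
  have e : {g : M ≃ᵢ M | dist (g x₀) x₀ ≤ r} = Set.range Ψ := by
    ext g
    constructor
    · intro hg
      refine ⟨⟨((g : M → M), (g⁻¹ : M ≃ᵢ M)), fun x y => ?_, hg⟩, ?_⟩
      · show dist (g y) x = dist y (g⁻¹ x)
        rw [← g.dist_eq y, IsometryEquiv.apply_inv_self]
      · exact IsometryEquiv.ext fun x => rfl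
    · rintro ⟨q, rfl⟩
      exact q.2.2
  rw [e]
  exact hr

theorem locallyCompactSpace [ProperSpace M] [Nonempty M] : LocallyCompactSpace (M ≃ᵢ M) := by
  have := isTopologicalGroup (M := M)
  obtain ⟨x₀⟩ := ‹Nonempty M›
  refine (isCompact_move x₀ 1).locallyCompactSpace_of_mem_nhds_of_group (x := 1) ?_
  have h1 : Continuous fun g : M ≃ᵢ M => dist (g x₀) x₀ :=
    (continuous_apply' x₀).dist continuous_const
  have h2 : {g : M ≃ᵢ M | dist (g x₀) x₀ < 1} ∈ 𝓝 (1 : M ≃ᵢ M) := by
    refine (isOpen_lt h1 continuous_const).mem_nhds ?_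
    simp
  refine Filter.mem_of_superset h2 fun g hg => ?_
  have h3 : dist (g x₀) x₀ < 1 := hg
  exact h3.le

theorem compactSpace_iso [CompactSpace M] : CompactSpace (M ≃ᵢ M) := by
  rcases isEmpty_or_nonempty M with hM | ⟨⟨x₀⟩⟩
  · have : Subsingleton (M ≃ᵢ M) := ⟨fun a b => IsometryEquiv.ext fun x => (hM.false x).elim⟩
    infer_instance
  · obtain ⟨r, hr⟩ := (isCompact_univ (X := M)).isBounded.subset_closedBall x₀
    refine ⟨?_⟩
    have e : (univ : Set (M ≃ᵢ M)) = {g : M ≃ᵢ M | dist (g x₀) x₀ ≤ r} := by
      ext g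
      simp only [mem_univ, mem_ofPred_eq, true_iff]
      exact hr (mem_univ (g x₀))
    rw [e]
    exact isCompact_move x₀ r

/-- The tautological action. -/
@[reducible] def isoAct (M : Type u) [MetricSpace M] : MulAction (M ≃ᵢ M) M where
  smul g x := g x
  one_smul _ := rfl
  mul_smul _ _ _ := rfl

attribute [local instance] isoAct

theorem continuousSMul : ContinuousSMul (M ≃ᵢ M) M := ⟨continuous_eval⟩

theorem faithfulSMul : FaithfulSMul (M ≃ᵢ M) M := ⟨fun h => IsometryEquiv.ext h⟩

end Vale.Agent.P228.H491
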