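import Vale.Agent.P228.H951.Loc
import Vale.Agent.P228.H615.Compact

/-!
# Newman's theorem on manifolds, for all compact groups

On a connected manifold with a metric, every nonempty open set `O` has an `ε > 0` such that no
nontrivial action of a compact group moves all points of `O` by less than `ε`.
-/

set_option autoImplicit false

namespace Vale.Agent.P228.H491

open Set Topology Metric Filter

universe u v

theorem newman (n : ℕ) {M : Type u} [MetricSpace M] [PreconnectedSpace M]
    [ChartedSpace (EuclideanSpace ℝ (Fin n)) M] {O : Set M} (hO : IsOpen O) (hne : O.Nonempty) :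
    ∃ ε > (0 : ℝ), ∀ (K : Type v) [Group K] [TopologicalSpace K] [MulAction K M]
      [ContinuousSMul K M], H615.CptStrong K → (∀ (k : K), ∀ x ∈ O, dist (k • x) x < ε) →
      ∀ (k : K) (x : M), k • x = x := by
  obtain ⟨x₀, hx₀O⟩ := hne
  obtain ⟨c, hc, H⟩ := H951.exists_ln n
  set e := chartAt (EuclideanSpace ℝ (Fin n)) x₀ with he
  have hx₀ : x₀ ∈ e.source := mem_chart_source _ x₀
  have hct : e x₀ ∈ e.target := e.map_source hx₀
  have hnh : e.target ∩ e.symm ⁻¹' O ∈ 𝓝 (e x₀) := by
    refine Filter.inter_mem (e.open_target.mem_nhds hct) ?_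
    have h1 : ContinuousAt e.symm (e x₀) := e.continuousAt_symm hct
    apply h1.preimage_mem_nhds
    rw [e.left_inv hx₀]
    exact hO.mem_nhds hx₀O
  obtain ⟨R, hR, hRs⟩ := nhds_basis_closedBall.mem_iff.1 hnh
  have hR0 : (0 : ℝ) < R := hR
  have hRt : closedBall (e x₀) R ⊆ e.target := fun x hx => (hRs hx).1
  have hRO : ∀ x ∈ closedBall (e x₀) R, e.symm x ∈ O := fun x hx => (hRs hx).2
  let Γ : Set (M × EuclideanSpace ℝ (Fin n)) := (fun x => (e.symm x, x)) '' closedBall (e x₀) R
  have hΓ : IsCompact Γ :=
    (isCompact_closedBall _ _).image_of_continuousOn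
      ((e.continuousOn_symm.mono hRt).prodMk continuousOn_id)
  let Ω : Set (M × EuclideanSpace ℝ (Fin n)) :=
    {z | z.1 ∈ e.source ∧ dist (e z.1) z.2 < c * (R / 2)}
  have hΩ : IsOpen Ω := by
    have h1 : ContinuousOn (fun z : M × EuclideanSpace ℝ (Fin n) => dist (e z.1) z.2)
        (e.source ×ˢ univ) := by
      have h0 : ContinuousOn (fun z : M × EuclideanSpace ℝ (Fin n) => e z.1)
          (e.source ×ˢ univ) :=
        e.continuousOn.comp (g := e) (f := Prod.fst) continuousOn_fst fun z hz => hz.1
      exact continuous_dist.comp_continuousOn (h0.prodMk continuousOn_snd)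
    have h2 := h1.isOpen_inter_preimage (e.open_source.prod isOpen_univ)
      (isOpen_Iio (a := c * (R / 2)))
    convert h2 using 1
    ext z
    simp only [Ω, mem_ofPred_eq, mem_inter_iff, mem_prod, mem_univ, and_true, mem_preimage, mem_Iio]
  have hsub : Γ ⊆ Ω := by
    rintro _ ⟨x, hx, rfl⟩
    refine ⟨e.map_target (hRt hx), ?_⟩
    show dist (e (e.symm x)) x < _
    rw [e.right_inv (hRt hx), dist_self]
    positivity
  obtain ⟨δ, hδ, hδs⟩ := hΓ.exists_thickening_subset_open hΩ hsub
  refine ⟨δ, hδ, ?_⟩
  intro K _ _ _ _ hC hd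
  have hs : ∀ (k : K), ∀ x ∈ closedBall (e x₀) R, k • e.symm x ∈ e.source ∧
      dist (e (k • e.symm x)) x < c * (R / 2) := by
    intro k x hx
    have h1 : (k • e.symm x, x) ∈ Ω := by
      apply hδs
      rw [mem_thickening_iff]
      refine ⟨(e.symm x, x), ⟨x, hx, rfl⟩, ?_⟩
      rw [Prod.dist_eq, max_lt_iff]
      exact ⟨hd k _ (hRO x hx), by simpa using hδ⟩
    exact h1
  let S : Subgroup K :=
    { carrier := {k | ∀ m : M, k • m = m}
      one_mem' := fun m => one_smul K m
      mul_mem' := fun {a b} ha hb m => by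
        show (a * b) • m = m
        rw [mul_smul, hb m, ha m]
      inv_mem' := fun {a} ha m => by
        show (a⁻¹) • m = m
        rw [inv_smul_eq_iff, ha m] }
  have hS : IsClosed (S : Set K) := by
    have e : (S : Set K) = ⋂ m : M, {k : K | k • m = m} := by
      ext k
      simp only [mem_iInter]
      rfl
    rw [e]
    exact isClosed_iInter fun m =>
      isClosed_eq (continuous_id.smul continuous_const) continuous_const
  intro k x
  have key : k ∈ S := by
    refine hC S hS (fun p _ φ hφ u m => ?_) k
    let act : AddAction ℤ_[p] M :=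
      { vadd := fun u m => φ (Multiplicative.ofAdd u) • m
        zero_vadd := fun m => by
          change φ (Multiplicative.ofAdd 0) • m = m
          rw [ofAdd_zero, map_one, one_smul]
        add_vadd := fun u v m => by
          change φ (Multiplicative.ofAdd (u + v)) • m =
            φ (Multiplicative.ofAdd u) • φ (Multiplicative.ofAdd v) • m
          rw [ofAdd_add, map_mul, mul_smul] }
    have : ContinuousVAdd ℤ_[p] M := ⟨by
      have h1 : Continuous fun z : ℤ_[p] × M => φ (Multiplicative.ofAdd z.1) :=
        hφ.comp (continuous_ofAdd.comp continuous_fst)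
      exact h1.smul continuous_snd⟩
    have h2 := H951.trivial_of_small (p := p) hc (H p) e hx₀ hR0 hRt
      (fun u x hx => hs (φ (Multiplicative.ofAdd u)) x hx) (Multiplicative.toAdd u) m
    exact h2
  exact key x

end Vale.Agent.P228.H491
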