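import Vale.Agent.P228.H491.Iso
import Vale.Agent.P228.H491.New
import Vale.Agent.P228.H951.Final
import Vale.Agent.P228.H752.CH
import Vale.Agent.P228.H951.PW
import Vale.Agent.P228.H796.Cpt

/-!
# Isometry groups of manifolds have no small subgroups
-/

set_option autoImplicit false

namespace Vale.Agent.P228.H491

open Set Topology Metric Filter

universe u v

theorem cptStrong (K : Type v) [Group K] [TopologicalSpace K] [IsTopologicalGroup K]
    [CompactSpace K] [T2Space K] : H615.CptStrong K := by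
  intro S hS h g
  exact H796.Cpt.mem_of_homs_cpt (H752.charStatement_of_pw H951.pw) hS h g

theorem newman_compact (n : ℕ) {M : Type u} [MetricSpace M] [PreconnectedSpace M]
    [ChartedSpace (EuclideanSpace ℝ (Fin n)) M] {O : Set M} (hO : IsOpen O) (hne : O.Nonempty) :
    ∃ ε > (0 : ℝ), ∀ (K : Type v) [Group K] [TopologicalSpace K] [IsTopologicalGroup K]
      [CompactSpace K] [T2Space K] [MulAction K M] [ContinuousSMul K M],
      (∀ (k : K), ∀ x ∈ O, dist (k • x) x < ε) → ∀ (k : K) (x : M), k • x = x := by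
  obtain ⟨ε, hε, H⟩ := newman.{u, v} n hO hne
  exact ⟨ε, hε, fun K _ _ _ _ _ _ _ hd => H K (cptStrong K) hd⟩

/-- In a locally compact group acting continuously on a connected manifold, subgroups near the
identity act trivially. -/
theorem small_trivial (n : ℕ) (M : Type u) [TopologicalSpace M] [T2Space M] [PreconnectedSpace M]
    [ChartedSpace (EuclideanSpace ℝ (Fin n)) M] (G : Type v) [Group G] [TopologicalSpace G]
    [IsTopologicalGroup G] [T2Space G] [LocallyCompactSpace G] [MulAction G M]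
    [ContinuousSMul G M] :
    ∃ U ∈ 𝓝 (1 : G), ∀ H : Subgroup G, (H : Set G) ⊆ U → ∀ h ∈ H, ∀ x : M, h • x = x := by
  obtain ⟨V, hV, H⟩ := H615.small_compact (M := M) n G fun K hK => by
    have : CompactSpace K := isCompact_iff_compactSpace.1 hK
    exact cptStrong K
  obtain ⟨C, hC, hCV, hCc⟩ := local_compact_nhds hV
  refine ⟨C, hC, fun K hK h hh x => ?_⟩
  have h1 : (K.topologicalClosure : Set G) ⊆ C := closure_minimal hK hCc.isClosed
  have h2 : IsCompact (K.topologicalClosure : Set G) :=
    hCc.of_isClosed_subset K.isClosed_topologicalClosure h1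
  exact H _ h2 (h1.trans hCV) h (K.le_topologicalClosure hh) x

section Isometries

variable {M : Type u} [MetricSpace M]

attribute [local instance] isoTop isoAct

/-- A group of isometries with precompact orbits, moving the points of `O` by less than `ε / 2`
in the sense of a continuous function `D`, is trivial, if `(O, ε)` has the Newman property. -/
theorem eq_bot_of_newman [ProperSpace M] (D : M → M → ℝ) (hD : ∀ x, Continuous fun y => D y x)
    {O : Set M} (x₁ : M) (r : ℝ) {ε : ℝ} (hε : 0 < ε)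
    (hN : ∀ (K : Type u) [Group K] [TopologicalSpace K] [IsTopologicalGroup K]
      [CompactSpace K] [T2Space K] [MulAction K M] [ContinuousSMul K M],
      (∀ (k : K), ∀ x ∈ O, D (k • x) x < ε) → ∀ (k : K) (x : M), k • x = x)
    (H : Subgroup (M ≃ᵢ M)) (hb : ∀ h ∈ H, dist (h x₁) x₁ ≤ r)
    (hH : ∀ h ∈ H, ∀ x ∈ O, D (h x) x < ε / 2) : H = ⊥ := by
  have i1 : IsTopologicalGroup (M ≃ᵢ M) := isTopologicalGroup
  have i2 : T2Space (M ≃ᵢ M) := t2Space
  have i3 : ContinuousSMul (M ≃ᵢ M) M := continuousSMul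
  have h1 : (H.topologicalClosure : Set (M ≃ᵢ M)) ⊆ {g | dist (g x₁) x₁ ≤ r} := by
    rw [Subgroup.topologicalClosure_coe]
    refine closure_minimal (fun h hh => hb h hh) ?_
    exact isClosed_le ((continuous_apply' x₁).dist continuous_const) continuous_const
  have h2 : IsCompact (H.topologicalClosure : Set (M ≃ᵢ M)) :=
    (isCompact_move x₁ r).of_isClosed_subset H.isClosed_topologicalClosure h1
  have i4 : CompactSpace H.topologicalClosure := isCompact_iff_compactSpace.1 h2
  have i5 : ContinuousSMul H.topologicalClosure M := ⟨by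
    have h3 : Continuous fun q : H.topologicalClosure × M => ((q.1 : M ≃ᵢ M), q.2) :=
      (continuous_subtype_val.comp continuous_fst).prodMk continuous_snd
    exact continuous_eval.comp h3⟩
  have h4 : ∀ (k : H.topologicalClosure), ∀ x ∈ O, D (k • x) x < ε := by
    intro k x hx
    have h5 : (H.topologicalClosure : Set (M ≃ᵢ M)) ⊆ {g | D (g x) x ≤ ε / 2} := by
      rw [Subgroup.topologicalClosure_coe]
      refine closure_minimal (fun h hh => (hH h hh x hx).le) ?_
      exact isClosed_le ((hD x).comp (continuous_apply' x)) continuous_const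
    have h6 : D ((k : M ≃ᵢ M) x) x ≤ ε / 2 := h5 k.2
    have h7 : D (k • x) x = D ((k : M ≃ᵢ M) x) x := rfl
    rw [h7]
    linarith
  have h8 := hN H.topologicalClosure h4
  rw [Subgroup.eq_bot_iff_forall]
  intro h hh
  refine IsometryEquiv.ext fun x => ?_
  exact h8 ⟨h, H.le_topologicalClosure hh⟩ x

/-- **metric form**: small groups of isometries are trivial. -/
theorem iso_newman (n : ℕ) [ProperSpace M] [PreconnectedSpace M]
    [ChartedSpace (EuclideanSpace ℝ (Fin n)) M] {O : Set M} (hO : IsOpen O) (hne : O.Nonempty) :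
    ∃ ε > (0 : ℝ), ∀ H : Subgroup (M ≃ᵢ M), (∀ h ∈ H, ∀ x ∈ O, dist (h x) x < ε) → H = ⊥ := by
  obtain ⟨ε, hε, HN⟩ := newman_compact.{u, u} n hO hne
  obtain ⟨x₁, hx₁⟩ := hne
  refine ⟨ε / 2, by positivity, fun H hH => ?_⟩
  exact eq_bot_of_newman (fun a b => dist a b) (fun x => continuous_id.dist continuous_const) x₁
    (ε / 2) hε HN H (fun h hh => (hH h hh x₁ hx₁).le) hH

/-- the isometry group has no small subgroups; it is a compact linear group if `M` is compact -/
theorem iso_nss (n : ℕ) [ProperSpace M] [ConnectedSpace M]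
    [ChartedSpace (EuclideanSpace ℝ (Fin n)) M] :
    IsTopologicalGroup (M ≃ᵢ M) ∧ LocallyCompactSpace (M ≃ᵢ M) ∧
    (Continuous fun q : (M ≃ᵢ M) × M => q.1 q.2) ∧
    (∃ U ∈ 𝓝 (1 : M ≃ᵢ M), ∀ H : Subgroup (M ≃ᵢ M), (H : Set (M ≃ᵢ M)) ⊆ U → H = ⊥) ∧
    (CompactSpace M → ∃ (N : ℕ) (φ : (M ≃ᵢ M) →* Matrix.unitaryGroup (Fin N) ℂ),
      Topology.IsClosedEmbedding φ) := by
  have i1 : IsTopologicalGroup (M ≃ᵢ M) := isTopologicalGroup
  have i2 : T2Space (M ≃ᵢ M) := t2Space
  have i3 : ContinuousSMul (M ≃ᵢ M) M := continuousSMul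
  have i4 : FaithfulSMul (M ≃ᵢ M) M := faithfulSMul
  have i5 : LocallyCompactSpace (M ≃ᵢ M) := locallyCompactSpace
  obtain ⟨-, h2, -, h4⟩ := H951.final H951.pw (fun K _ _ _ _ _ => cptStrong K) n M (M ≃ᵢ M)
  exact ⟨i1, i5, continuous_eval, h2 i5, fun _ => h4 compactSpace_iso⟩

end Isometries

end Vale.Agent.P228.H491
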